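import Vale.Agent.P217.Action.Residual
import Vale.Agent.P217.Theta.Congr
import Vale.Agent.P217.Eval.Roots
import Vale.Agent.P217.CharZero.LogVal

/-!
# P217: periods of an endomorphism of the Honda law from its digits
-/

noncomputable section

set_option linter.unusedSectionVars false

namespace Vale.Agent.P217.Relation

open MvPowerSeries Finset Filter Topology Vale.Agent.P217.Theta

/-! ## Digits -/

section Formal

variable {p : ℕ} [hp : Fact p.Prime] {C : Type} [Field C] [CharP C p]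

/-- The monomial `c X^(p^t)`. -/
abbrev mono (p : ℕ) {C : Type} [CommRing C] (c : C) (t : ℕ) : PowerSeries C :=
  PowerSeries.C c * PowerSeries.X ^ p ^ t

/-- Formal sums of monomials. -/
def digSum (p h : ℕ) {C : Type} [CommRing C] (c : ℕ → C) : ℕ → PowerSeries C
  | 0 => 0
  | N + 1 => fadd (honda p h C) (digSum p h c N) (mono p (c N) N)

lemma isEndo_digSum {h : ℕ} (hh : 1 ≤ h) {c : ℕ → C} (hc : ∀ t, c t ^ p ^ h = c t) :
    ∀ N, IsEndo (honda p h C) (digSum p h c N)
  | 0 => IsHom.zero _ _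
  | N + 1 => IsHom.fadd (law_isComm p _) (isEndo_digSum hh hc N) (isEndo_monomial hh (hc N) N)

lemma coeff_fadd_mono {h : ℕ} {S : PowerSeries C} (hS : PowerSeries.constantCoeff S = 0) (c : C)
    (N : ℕ) {m : ℕ} (hm : m ≤ p ^ N) :
    PowerSeries.coeff m (fadd (honda p h C) S (mono p c N) : PowerSeries C) =
      PowerSeries.coeff m S + (if m = p ^ N then c else 0) := by
  have hb : MvPowerSeries.constantCoeff (mono p c N : MvPowerSeries Unit C) = 0 :=
    constantCoeff_mono p c N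
  have h := coeff_fadd_sub (honda p h C) (a := (S : MvPowerSeries Unit C))
    (a' := (S : MvPowerSeries Unit C)) (b := (mono p c N : MvPowerSeries Unit C)) (b' := 0)
    hS hS hb (map_zero _) (d := Finsupp.single () m) (fun _ _ => rfl) fun e he => by
      obtain ⟨l, rfl⟩ : ∃ l, e = Finsupp.single () l := ⟨e (), Finsupp.unique_single e⟩
      rw [Finsupp.degree_single, Finsupp.degree_single] at he
      rw [map_zero]
      change PowerSeries.coeff l _ = 0
      rw [PowerSeries.coeff_C_mul, PowerSeries.coeff_X_pow, if_neg (he.trans_le hm).ne, mul_zero]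
  rw [fadd_zero' _ hS, map_zero, sub_zero, sub_self, zero_add] at h
  change PowerSeries.coeff m (fadd (honda p _ C) S (mono p c N) : PowerSeries C) -
    PowerSeries.coeff m S = PowerSeries.coeff m (mono p c N) at h
  rw [PowerSeries.coeff_C_mul, PowerSeries.coeff_X_pow, mul_ite, mul_one, mul_zero] at h
  linear_combination h

/-- Digits of an endomorphism of the Honda law. -/
theorem exists_digSum {h : ℕ} (hh : 1 ≤ h) {α : PowerSeries C}
    (hα : IsEndo (honda p h C) α) :
    ∃ c : ℕ → C, (∀ t, c t ^ p ^ h = c t) ∧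
      ∀ N m, m < p ^ N → PowerSeries.coeff m α = PowerSeries.coeff m (digSum p h c N) := by
  let next : ℕ → PowerSeries C → C := fun N S =>
    PowerSeries.coeff (p ^ N) α - PowerSeries.coeff (p ^ N) S
  obtain ⟨T, hT0, hTs⟩ : ∃ T : ℕ → PowerSeries C, T 0 = 0 ∧
      ∀ N, T (N + 1) = fadd (honda p h C) (T N) (mono p (next N (T N)) N) :=
    ⟨fun N => Nat.rec 0 (fun N S => fadd (honda p h C) S (mono p (next N S) N)) N, rfl,
      fun _ => rfl⟩
  set c : ℕ → C := fun N => next N (T N) with hcdef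
  have hT : ∀ N, digSum p h c N = T N := by
    intro N
    induction N with
    | zero => rw [hT0]; rfl
    | succ N ih => rw [digSum, ih, hTs]
  have hend : ∀ N, IsEndo (honda p h C) (T N) := by
    intro N
    induction N with
    | zero => rw [hT0]; exact IsHom.zero _ _
    | succ N ih =>
      rw [hTs]
      refine IsHom.fadd (law_isComm p _) ih (isEndo_monomial hh ?_ N)
      rw [sub_pow_char_pow (R := C) (p := p), coeff_endo_honda p hh hα, coeff_endo_honda p hh ih]
  have hfix : ∀ t, c t ^ p ^ h = c t := fun t => by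
    rw [hcdef]
    dsimp only [next]
    rw [sub_pow_char_pow (R := C) (p := p), coeff_endo_honda p hh hα,
      coeff_endo_honda p hh (hend t)]
  refine ⟨c, hfix, fun N => ?_⟩
  induction N with
  | zero =>
    intro m hm
    obtain rfl : m = 0 := by simpa using hm
    rw [PowerSeries.coeff_zero_eq_constantCoeff_apply, PowerSeries.coeff_zero_eq_constantCoeff_apply,
      hα.1, (isEndo_digSum hh hfix 0).1]
  | succ N ih =>
    intro m
    induction m using Nat.strong_induction_on with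
    | _ m ihm =>
      intro hm
      rcases lt_trichotomy m (p ^ N) with hlt | heq | hgt
      · rw [digSum, coeff_fadd_mono (isEndo_digSum hh hfix N).1 _ _ hlt.le, if_neg hlt.ne,
          add_zero, ih m hlt]
      · rw [digSum, coeff_fadd_mono (isEndo_digSum hh hfix N).1 _ _ heq.le, if_pos heq, hT, heq]
        simp only [hcdef, next]
        ring
      · refine coeff_eq_of_agree hα (isEndo_digSum hh hfix (N + 1)) (fun v hv => ?_)
          fun l hl => ihm l hl (hl.trans hm)
        subst hv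
        have a1 := (Nat.pow_lt_pow_iff_right hp.out.one_lt).mp hgt
        have a2 := (Nat.pow_lt_pow_iff_right hp.out.one_lt).mp hm
        omega

end Formal

/-! ## Values -/

section Values

variable {p : ℕ} [hp : Fact p.Prime] {C : Type} [NormedField C] [IsUltrametricDist C]
  [CompleteSpace C] [CharP C p] [PerfectRing C p]

omit [IsUltrametricDist C] [CompleteSpace C] [CharP C p] [PerfectRing C p] in
lemma norm_fixed {h : ℕ} (hh : 1 ≤ h) {c : C} (hc : c ^ p ^ h = c) : ‖c‖ = 0 ∨ ‖c‖ = 1 := by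
  rcases eq_or_ne c 0 with rfl | hc0
  · simp
  have hq : 1 < p ^ h := Nat.one_lt_pow (by omega) hp.out.one_lt
  have h1 : c ^ (p ^ h - 1) = 1 := by
    apply mul_right_cancel₀ hc0
    rw [one_mul, ← pow_succ, show p ^ h - 1 + 1 = p ^ h by omega, hc]
  have h2 := congrArg (‖·‖) h1
  simp only [norm_pow, norm_one] at h2
  exact Or.inr ((pow_eq_one_iff_of_nonneg (norm_nonneg c) (by omega)).1 h2)

omit [IsUltrametricDist C] [CompleteSpace C] [CharP C p] [PerfectRing C p] in
lemma norm_fixed_le {h : ℕ} (hh : 1 ≤ h) {c : C} (hc : c ^ p ^ h = c) : ‖c‖ ≤ 1 := by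
  rcases norm_fixed hh hc with h1 | h1 <;> rw [h1]
  exact zero_le_one

lemma intSer_honda (h : ℕ) : IntSer (honda p h C).toPowerSeries := fun d => by
  rw [coeff_honda]
  exact IsUltrametricDist.norm_intCast_le_one C _

lemma intSer_mono {c : C} (hc : ‖c‖ ≤ 1) (t : ℕ) : IntSer (mono p c t) :=
  Eval.intSer_iff.2 fun m => by
    rw [PowerSeries.coeff_C_mul, PowerSeries.coeff_X_pow, mul_ite, mul_one, mul_zero]
    split_ifs <;> simp [hc]

lemma intSer_digSum (hE : EvalTarget) {h : ℕ} (hh : 1 ≤ h) {c : ℕ → C}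
    (hc : ∀ t, c t ^ p ^ h = c t) : ∀ N, IntSer (digSum p h c N)
  | 0 => Theta.intSer_zero
  | N + 1 => Theta.intSer_subst hE (fun i => by
      fin_cases i
      · exact ⟨intSer_digSum hE hh hc N, (isEndo_digSum hh hc N).1⟩
      · exact ⟨intSer_mono (norm_fixed_le hh (hc N)) N, constantCoeff_mono p _ N⟩)
      (intSer_honda h)

lemma ev1_mono (z c : C) (t : ℕ) : ev1 z (mono p c t) = c * z ^ p ^ t := by
  rw [Eval.ev1_eq_tsum, tsum_eq_single (p ^ t)]
  · rw [PowerSeries.coeff_C_mul, PowerSeries.coeff_X_pow, if_pos rfl, mul_one]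
  · intro m hm
    rw [PowerSeries.coeff_C_mul, PowerSeries.coeff_X_pow, if_neg hm, mul_zero, zero_mul]

lemma ev1_digSum_succ (hE : EvalTarget) {h : ℕ} (hh : 1 ≤ h) {c : ℕ → C}
    (hc : ∀ t, c t ^ p ^ h = c t) {z : C} (hz : ‖z‖ < 1) (N : ℕ) :
    ev1 z (digSum p h c (N + 1)) =
      padd (honda p h C) (ev1 z (digSum p h c N)) (c N * z ^ p ^ N) := by
  rw [digSum, fadd, ev1_def, ev_subst_pair hE (intSer_digSum hE hh hc N) (isEndo_digSum hh hc N).1
    (intSer_mono (norm_fixed_le hh (hc N)) N) (constantCoeff_mono p _ N) (intSer_honda h)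
    (small_unit hz)]
  exact congrArg _ (ev1_mono z (c N) N)

lemma norm_digSum_le (hE : EvalTarget) {h : ℕ} (hh : 1 ≤ h) {c : ℕ → C}
    (hc : ∀ t, c t ^ p ^ h = c t) {z : C} (hz : ‖z‖ < 1) (N : ℕ) :
    ‖ev1 z (digSum p h c N)‖ ≤ ‖z‖ :=
  norm_ev1_le hE hz (intSer_digSum hE hh hc N) (isEndo_digSum hh hc N).1

lemma tendsto_digSum (hE : EvalTarget) {h : ℕ} (hh : 1 ≤ h) {α : PowerSeries C}
    (hαi : IntSer α) {c : ℕ → C} (hc : ∀ t, c t ^ p ^ h = c t)
    (hag : ∀ N m, m < p ^ N → PowerSeries.coeff m α = PowerSeries.coeff m (digSum p h c N))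
    {z : C} (hz : ‖z‖ < 1) :
    Tendsto (fun N => ev1 z (digSum p h c N)) atTop (𝓝 (ev1 z α)) := by
  rw [tendsto_iff_norm_sub_tendsto_zero]
  refine squeeze_zero (fun N => norm_nonneg _) (fun N => ?_)
    ((tendsto_pow_atTop_nhds_zero_of_lt_one (norm_nonneg z) hz).comp
      (tendsto_pow_atTop_atTop_of_one_lt hp.out.one_lt))
  refine le_of_tendsto ((hasSum_ev hE (small_unit hz) (intSer_digSum hE hh hc N)).sub
    (hasSum_ev hE (small_unit hz) hαi)).norm (Filter.Eventually.of_forall fun s => ?_)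
  refine IsUltrametricDist.norm_sum_le_of_forall_le_of_nonneg
    (pow_nonneg (norm_nonneg z) _) fun d _ => ?_
  obtain ⟨m, rfl⟩ : ∃ m, d = Finsupp.single () m := ⟨d (), Finsupp.unique_single d⟩
  rw [← sub_mul, norm_mul, Eval.mon_single, norm_pow]
  change ‖PowerSeries.coeff m _ - PowerSeries.coeff m α‖ * _ ≤ _
  rcases lt_or_ge m (p ^ N) with hlt | hge
  · rw [hag N m hlt, sub_self, norm_zero, zero_mul]
    exact pow_nonneg (norm_nonneg z) _
  · refine (mul_le_of_le_one_left (pow_nonneg (norm_nonneg z) _) ?_).trans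
      (pow_le_pow_of_le_one (norm_nonneg z) hz.le hge)
    exact (Eval.norm_sub_le_max' _ _).trans (max_le
      (Eval.intSer_iff.1 (intSer_digSum hE hh hc N) m) (Eval.intSer_iff.1 hαi m))

/-- `per` shifted to the first period. -/
lemma per_mod (hP : PeriodTarget) (S : Sharp p C) {n : ℕ} (hn : 1 ≤ n) {η : C} (hη : ‖η‖ < 1) :
    ∀ m : ℕ, per p n S η (m : ℤ) =
      (p : ℂ_[p]) ^ (m / n) * per p n S η ((m % n : ℕ) : ℤ) := by
  intro m
  induction m using Nat.strong_induction_on with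
  | _ m ih =>
    rcases Nat.lt_or_ge m n with h | h
    · rw [Nat.div_eq_of_lt h, Nat.mod_eq_of_lt h, pow_zero, one_mul]
    · obtain ⟨m', rfl⟩ : ∃ m', m = m' + n := ⟨m - n, by omega⟩
      rw [Nat.add_mod_right, Nat.add_div_right _ (by omega : 0 < n), Nat.cast_add,
        ((hP p C S n hn).1 η m' hη).2.1, ih m' (by omega), pow_succ', mul_assoc]

lemma per_add_mul (hP : PeriodTarget) (S : Sharp p C) {n : ℕ} (hn : 1 ≤ n) {η : C} (hη : ‖η‖ < 1)
    (m : ℕ) : ∀ k : ℕ, per p n S η ((m + k * n : ℕ) : ℤ) = (p : ℂ_[p]) ^ k * per p n S η (m : ℤ)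
  | 0 => by simp
  | k + 1 => by
    rw [show m + (k + 1) * n = (m + k * n) + n by ring, Nat.cast_add,
      ((hP p C S n hn).1 η _ hη).2.1, per_add_mul hP S hn hη m k, pow_succ', mul_assoc]

lemma per_zero (hP : PeriodTarget) (hE : EvalTarget) (S : Sharp p C) {n : ℕ} (hn : 1 ≤ n) (r : ℤ) :
    per p n S (0 : C) r = 0 := by
  have h := ((hP p C S n hn).1 (0 : C) r (by simp)).2.2.1 0 (by simp)
  rwa [padd_zero_left hE (intSer_honda n) (by simp), left_eq_add] at h

lemma per_monomial (hP : PeriodTarget) (S : Sharp p C) {n : ℕ} (hn : 1 ≤ n) {c z : C}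
    (hc : c ^ p ^ n = c) (hz : ‖z‖ < 1) (t : ℕ) {r : ℕ} (hr : r < n) :
    per p n S (c * z ^ p ^ t) (r : ℤ) = S.ρ c ^ p ^ r * per p n S z ((r + t : ℕ) : ℤ) := by
  have hz' : ‖z ^ p ^ t‖ < 1 := by
    rw [norm_pow]
    exact pow_lt_one₀ (norm_nonneg _) hz (pow_ne_zero _ hp.out.ne_zero)
  rw [((hP p C S n hn).1 _ _ hz').2.2.2.2.1 c hc, ((hP p C S n hn).1 z _ hz).2.2.2.1 t,
    ← Nat.cast_add, ← Int.natCast_mod, Int.toNat_natCast, Nat.mod_eq_of_lt hr]

lemma per_digSum (hP : PeriodTarget) (hE : EvalTarget) (S : Sharp p C) {h : ℕ} (hh : 1 ≤ h)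
    {c : ℕ → C} (hc : ∀ t, c t ^ p ^ h = c t) {z : C} (hz : ‖z‖ < 1) {r : ℕ} (hr : r < h) :
    ∀ N, per p h S (ev1 z (digSum p h c N)) (r : ℤ) =
      ∑ t ∈ range N, S.ρ (c t) ^ p ^ r * per p h S z ((r + t : ℕ) : ℤ)
  | 0 => by
    rw [Finset.sum_range_zero]
    convert per_zero hP hE S hh (r : ℤ)
    simp [digSum, ev1, ev]
  | N + 1 => by
    have h1 : ‖ev1 z (digSum p h c N)‖ < 1 := (norm_digSum_le hE hh hc hz N).trans_lt hz
    have h2 : ‖c N * z ^ p ^ N‖ < 1 := by
      rw [norm_mul, norm_pow]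
      exact (mul_le_of_le_one_left (pow_nonneg (norm_nonneg _) _)
        (norm_fixed_le hh (hc N))).trans_lt
        (pow_lt_one₀ (norm_nonneg _) hz (pow_ne_zero _ hp.out.ne_zero))
    rw [ev1_digSum_succ hE hh hc hz, ((hP p C S h hh).1 _ _ h1).2.2.1 _ h2,
      per_digSum hP hE S hh hc hz hr N, per_monomial hP S hh (hc N) hz N hr, Finset.sum_range_succ]

/-- The entries of the matrix of an endomorphism. -/
def entry (S : Sharp p C) (h : ℕ) (c : ℕ → C) (r e : ℕ) : ℂ_[p] :=
  ∑' k : ℕ, (p : ℂ_[p]) ^ k * S.ρ (c (e + k * h)) ^ p ^ r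

omit [CompleteSpace C] [CharP C p] [PerfectRing C p] in
lemma summable_pow_mul {a : ℕ → ℂ_[p]} (ha : ∀ k, ‖a k‖ ≤ 1) :
    Summable fun k : ℕ => (p : ℂ_[p]) ^ k * a k := by
  have hp1 : ‖(p : ℂ_[p])‖ < 1 := by
    rw [norm_natCast_padic]
    exact inv_lt_one_of_one_lt₀ (by exact_mod_cast hp.out.one_lt)
  exact Summable.of_norm_bounded (summable_geometric_of_lt_one (norm_nonneg _) hp1) fun k => by
    rw [norm_mul, norm_pow]
    exact mul_le_of_le_one_right (pow_nonneg (norm_nonneg _) _) (ha k)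

/-- Periods of the image under an endomorphism. -/
lemma per_endo (hP : PeriodTarget) (hE : EvalTarget) (S : Sharp p C) {h : ℕ} (hh : 1 ≤ h)
    {α : PowerSeries C} (hαi : IntSer α) {c : ℕ → C} (hc : ∀ t, c t ^ p ^ h = c t)
    (hag : ∀ N m, m < p ^ N → PowerSeries.coeff m α = PowerSeries.coeff m (digSum p h c N))
    {z : C} (hz : ‖z‖ < 1) {r : ℕ} (hr : r < h) :
    per p h S (ev1 z α) (r : ℤ) =
      ∑ e ∈ range h, entry S h c r e * per p h S z ((r + e : ℕ) : ℤ) := by
  have hz' : ‖ev1 z α‖ < 1 := by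
    refine lt_of_le_of_lt ?_ hz
    exact le_of_tendsto (tendsto_digSum hE hh hαi hc hag hz).norm
      (Filter.Eventually.of_forall fun N => norm_digSum_le hE hh hc hz N)
  have h1 : Tendsto (fun N => per p h S (ev1 z (digSum p h c N)) (r : ℤ)) atTop
      (𝓝 (per p h S (ev1 z α) (r : ℤ))) :=
    ((hP p C S h hh).1 _ _ hz').2.2.2.2.2 _ ‖z‖ hz (norm_digSum_le hE hh hc hz)
      (tendsto_digSum hE hh hαi hc hag hz)
  have hblock : ∀ K : ℕ, ∑ t ∈ range (K * h), S.ρ (c t) ^ p ^ r * per p h S z ((r + t : ℕ) : ℤ) =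
      ∑ e ∈ range h, (∑ k ∈ range K, (p : ℂ_[p]) ^ k * S.ρ (c (e + k * h)) ^ p ^ r) *
        per p h S z ((r + e : ℕ) : ℤ) := by
    intro K
    induction K with
    | zero => simp
    | succ K ih =>
      rw [Nat.succ_mul, Finset.sum_range_add, ih, ← Finset.sum_add_distrib]
      refine Finset.sum_congr rfl fun e _ => ?_
      rw [Finset.sum_range_succ, add_mul]
      congr 1
      rw [show r + (K * h + e) = r + e + K * h by ring, per_add_mul hP S hh hz,
        add_comm (K * h) e]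
      ring
  have h2 : Tendsto (fun K => per p h S (ev1 z (digSum p h c (K * h))) (r : ℤ)) atTop
      (𝓝 (∑ e ∈ range h, entry S h c r e * per p h S z ((r + e : ℕ) : ℤ))) := by
    simp only [per_digSum hP hE S hh hc hz hr, hblock]
    refine tendsto_finsetSum _ fun e _ => Tendsto.mul_const _ ?_
    exact (summable_pow_mul fun k => by
      rw [norm_pow, S.norm_eq]
      exact pow_le_one₀ (norm_nonneg _) (norm_fixed_le hh (hc _))).hasSum.tendsto_sum_nat
  exact tendsto_nhds_unique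
    (h1.comp (tendsto_atTop_mono (fun K => Nat.le_mul_of_pos_right K (by omega)) tendsto_id)) h2

/-- An endomorphism with vanishing first row has vanishing digits. -/
lemma digit_zero_of_entry (S : Sharp p C) {h : ℕ} (hh : 1 ≤ h) {c : ℕ → C}
    (hc : ∀ t, c t ^ p ^ h = c t) (h0 : ∀ e < h, entry S h c 0 e = 0) : ∀ t, c t = 0 := by
  intro t
  induction t using Nat.strong_induction_on with
  | _ t ih =>
    obtain ⟨k₀, e, he, rfl⟩ : ∃ k₀ e, e < h ∧ t = e + k₀ * h :=
      ⟨t / h, t % h, Nat.mod_lt _ (by omega), by rw [mul_comm, Nat.mod_add_div]⟩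
    have hs : Summable fun k : ℕ => (p : ℂ_[p]) ^ k * S.ρ (c (e + k * h)) :=
      summable_pow_mul fun k => by rw [S.norm_eq]; exact norm_fixed_le hh (hc _)
    have hv := h0 e he
    simp only [entry, pow_zero, pow_one] at hv
    rw [← hs.sum_add_tsum_nat_add (k₀ + 1), Finset.sum_range_succ,
      Finset.sum_eq_zero fun k hk => by
        rw [Finset.mem_range] at hk
        rw [ih (e + k * h) (by nlinarith), map_zero, mul_zero], zero_add] at hv
    by_contra hne
    have hnorm : ‖c (e + k₀ * h)‖ = 1 :=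
      (norm_fixed hh (hc _)).resolve_left (fun h => hne (norm_eq_zero.1 h))
    have h2 := congrArg (‖·‖) (eq_neg_of_add_eq_zero_left hv)
    simp only [norm_neg, norm_mul, norm_pow, S.norm_eq, hnorm, mul_one] at h2
    have hp1 : ‖(p : ℂ_[p])‖ < 1 := by
      rw [norm_natCast_padic]
      exact inv_lt_one_of_one_lt₀ (by exact_mod_cast hp.out.one_lt)
    have hppos : 0 < ‖(p : ℂ_[p])‖ := norm_pos_iff.2 (Nat.cast_ne_zero.mpr hp.out.ne_zero)
    have h3 : ‖∑' k : ℕ, (p : ℂ_[p]) ^ (k + (k₀ + 1)) * S.ρ (c (e + (k + (k₀ + 1)) * h))‖ ≤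
        ‖(p : ℂ_[p])‖ ^ (k₀ + 1) :=
      Eval.norm_tsum_le (pow_nonneg (norm_nonneg _) _) fun k => by
        rw [norm_mul, norm_pow, S.norm_eq]
        exact (mul_le_of_le_one_right (pow_nonneg (norm_nonneg _) _)
          (norm_fixed_le hh (hc _))).trans
          (pow_le_pow_of_le_one (norm_nonneg _) hp1.le (by omega))
    rw [← h2] at h3
    exact (pow_lt_pow_right_of_lt_one₀ hppos hp1 (by omega : k₀ < k₀ + 1)).not_ge h3

lemma eq_zero_of_entry (S : Sharp p C) {h : ℕ} (hh : 1 ≤ h) {α : PowerSeries C} {c : ℕ → C}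
    (hc : ∀ t, c t ^ p ^ h = c t)
    (hag : ∀ N m, m < p ^ N → PowerSeries.coeff m α = PowerSeries.coeff m (digSum p h c N))
    (h0 : ∀ e < h, entry S h c 0 e = 0) : α = 0 := by
  have hz := digit_zero_of_entry S hh hc h0
  have hS : ∀ N, digSum p h c N = 0 := by
    intro N
    induction N with
    | zero => rfl
    | succ N ih =>
      rw [digSum, ih, mono, hz N, map_zero, zero_mul]
      exact fadd_zero' _ (map_zero _)
  ext m
  rw [hag m m (Nat.lt_pow_self hp.out.one_lt), hS, map_zero]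

end Values

end Vale.Agent.P217.Relation

end
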