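import Vale.Agent.P217.Relation.Zp
import Vale.Agent.P217.Torsion.Target

/-!
# P217: periods of a Tate basis satisfy no relation over the closure of the naturals
-/

noncomputable section

set_option linter.unusedSectionVars false

namespace Vale.Agent.P217.Relation

open Finset Filter Topology Vale.Agent.P217.Theta

variable {p n h : ℕ} [hp : Fact p.Prime] {C : Type} [NontriviallyNormedField C]
  [IsUltrametricDist C] [CompleteSpace C] [CharP C p] [PerfectRing C p]

/-- The Honda law as a law with points. -/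
def hondaLaw (hE : EvalTarget) (p : ℕ) [Fact p.Prime] (n : ℕ) (C : Type) [NormedField C] [IsUltrametricDist C]
    [CompleteSpace C] : PLaw C :=
  ⟨honda p n C, hE, intSer_law p (v := vHonda n) (fun i => by unfold vHonda; split_ifs <;> simp),
    law_isComm p _⟩

lemma pmul_hondaLaw (hE : EvalTarget) (hL : LowDegreeTarget) (hn : 1 ≤ n)
    (x : Pt (hondaLaw hE p n C)) : ∀ M : ℕ, (p ^ M • x).val = x.val ^ p ^ (n * M)
  | 0 => by simp
  | M + 1 => by
    rw [pow_succ', mul_nsmul', Pt.val_nsmul]
    change pmul (honda p n C) p _ = _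
    rw [pmul, ← pSer, (hL p C).2.2.2 n hn inferInstance, Eval.ev1_eq_tsum,
      tsum_eq_single (p ^ n), PowerSeries.coeff_X_pow, if_pos rfl, one_mul,
      pmul_hondaLaw hE hL hn x M, ← pow_mul, ← pow_add, mul_add, mul_one]
    intro m hm
    rw [PowerSeries.coeff_X_pow, if_neg hm, zero_mul]

/-- The points of norm at most `r`. -/
def ballPt (L : PLaw C) (r : ℝ) (hr : 0 ≤ r) : AddSubgroup (Pt L) where
  carrier := {x | ‖x.val‖ ≤ r}
  zero_mem' := by simpa using hr
  add_mem' {a b} ha hb := by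
    rw [Set.mem_ofPred_eq, Pt.val_add]
    exact norm_ev_le L.hE (small_pair a.small b.small) L.hF L.F.zero_constantCoeff hr
      fun i => by fin_cases i <;> assumption
  neg_mem' {a} ha := ((exists_padd_eq_zero L.hE L.hF a.small).choose_spec.1).trans ha

variable (T : Torsion.Data p n h C)

lemma norm_root_padd_aux (T : Torsion.Data p n h C) (m : ℕ) {a b : C} (ha : ‖a‖ < 1) (hb : ‖b‖ < 1) :
    root p (padd (honda p n C) a b) m =
      padd (honda p n C) (root p a m) (root p b m) := by
  rw [show padd (honda p n C) a b = ev ![a, b] (honda p n C).toPowerSeries from rfl,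
    root_ev T.hE (small_pair ha hb) (intSer_honda n) (m := m) fun d => by
      rw [coeff_honda]
      exact map_intCast (iterateFrobenius C p m) _, padd]
  congr 1
  funext i
  fin_cases i <;> rfl

/-- `θ` composed with a root, as a map of groups of points. -/
def thetaRoot (m : ℕ) : Pt (hondaLaw T.hE p n C) →+ Pt T.L :=
  AddMonoidHom.mk' (fun x => ⟨thetaC p n T.u (root p x.val m),
    T.setup.norm_theta_lt (norm_root_lt x.small m)⟩) fun x y => Pt.ext (by
      change thetaC p n T.u (root p (padd (honda p n C) x.val y.val) m) = _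
      rw [norm_root_padd_aux T m x.small y.small]
      exact T.setup.theta_add (norm_root_lt x.small m) (norm_root_lt y.small m))

lemma per_sum (hP : PeriodTarget) (S : Sharp p C) (hn : 1 ≤ n) (r : ℕ) {d : ℕ}
    (f : Fin d → Pt (hondaLaw T.hE p n C)) :
    per p n S (∑ i, f i).val (r : ℤ) = ∑ i, per p n S (f i).val (r : ℤ) := by
  induction d with
  | zero => simpa using per_zero hP T.hE S hn (r : ℤ)
  | succ d ih =>
    rw [Fin.sum_univ_succ, Fin.sum_univ_succ, ← ih]
    exact ((hP p C S n hn).1 _ _ (f 0).small).2.2.1 _ (∑ i : Fin d, f i.succ).small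

lemma per_nsmul (hP : PeriodTarget) (S : Sharp p C) (hn : 1 ≤ n) (r : ℕ)
    (x : Pt (hondaLaw T.hE p n C)) : ∀ N : ℕ,
    per p n S (N • x).val (r : ℤ) = N * per p n S x.val (r : ℤ)
  | 0 => by simpa using per_zero hP T.hE S hn (r : ℤ)
  | N + 1 => by
    rw [succ_nsmul, Nat.cast_succ, add_mul, one_mul, ← per_nsmul hP S hn r x N]
    exact ((hP p C S n hn).1 _ _ (N • x).small).2.2.1 _ x.small

/-- No relations with coefficients in the closure of the naturals. -/
theorem relation_zero (hP : PeriodTarget) (S : Sharp p C) {d : ℕ} {ξ : Fin d → C}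
    (hξ : IsTate p n d T.u ξ) {z : Fin d → ℂ_[p]} (hz : ∀ i, z i ∈ Zcl p)
    (hrel : ∀ s < n, ∑ i, z i * per p n S (ξ i) (s : ℕ) = 0) : ∀ i, z i = 0 := by
  have hn := T.one_le_n
  have hn2 : 2 ≤ n := by have := T.hu.one_le; have := T.hu.lt; omega
  choose N hN using fun i M => exists_nat_close (hz i) M
  set π : ℝ := ‖(p : ℂ_[p])‖ with hπ
  have hπ0 : 0 ≤ π := norm_nonneg _
  have hπ1 : π < 1 := norm_p_lt_one
  have hdiv : ∀ i M, ∃ D : ℤ, (N i (M + 1) : ℤ) = N i M + (p ^ M : ℕ) * D := by
    intro i M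
    obtain ⟨D, hD⟩ := pow_dvd_sub_of_norm_le (a := N i (M + 1)) (b := N i M) (M := M) (by
      refine Theta.norm_sub_trans (y := z i) ?_ (hN i M)
      rw [norm_sub_rev]
      exact (hN i (M + 1)).trans (pow_le_pow_of_le_one hπ0 hπ1.le (by omega)))
    exact ⟨D, by linear_combination hD⟩
  choose D hD using hdiv
  let X : Fin d → Pt (hondaLaw T.hE p n C) := fun i => ⟨ξ i, hξ.small i⟩
  let η : ℕ → Pt (hondaLaw T.hE p n C) := fun M => ∑ i, N i M • X i
  have hstep : ∀ M, η (M + 1) = η M + ∑ i, D i M • (p ^ M • X i) := fun M => by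
    simp only [η]
    rw [← Finset.sum_add_distrib]
    refine Finset.sum_congr rfl fun i _ => ?_
    rw [← natCast_zsmul (X i) (N i (M + 1)), hD i M, add_zsmul, natCast_zsmul, mul_comm,
      mul_zsmul, natCast_zsmul]
  obtain ⟨ρ, hρ0, hρ1, hρ⟩ : ∃ ρ : ℝ, 0 ≤ ρ ∧ ρ < 1 ∧ ∀ i, ‖ξ i‖ ≤ ρ := by
    obtain ⟨ρ, h0, h1, h2⟩ := Eval.exists_radius (x := ξ) hξ.small
    exact ⟨ρ, h0, h1, h2⟩
  have hclose : ∀ M, ‖(η (M + 1)).val - (η M).val‖ ≤ ρ ^ M := fun M => by
    rw [hstep, Pt.val_add]
    change ‖padd (honda p n C) _ _ - _‖ ≤ _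
    rw [norm_padd_sub_self T.hE (intSer_honda n) (law_isComm p _) (η M).small
      (∑ i, D i M • (p ^ M • X i)).small]
    refine (AddSubgroup.sum_mem (ballPt (hondaLaw T.hE p n C) (ρ ^ M) (pow_nonneg hρ0 M))
      fun i _ => AddSubgroup.zsmul_mem _ ?_ _ : _)
    change ‖(p ^ M • X i).val‖ ≤ ρ ^ M
    rw [pmul_hondaLaw T.hE T.hL hn, norm_pow]
    exact (pow_le_pow_left₀ (norm_nonneg _) (hρ i) _).trans (pow_le_pow_of_le_one hρ0 hρ1.le
      ((Nat.le_mul_of_pos_left M hn).trans (Nat.lt_pow_self hp.out.one_lt).le))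
  have hbound : ∀ M, ‖(η M).val‖ ≤ ρ := fun M =>
    AddSubgroup.sum_mem (ballPt (hondaLaw T.hE p n C) ρ hρ0) fun i _ =>
      AddSubgroup.nsmul_mem (ballPt (hondaLaw T.hE p n C) ρ hρ0) (hρ i : X i ∈ _) _
  have hcauchy : CauchySeq fun M => (η M).val := by
    refine cauchySeq_of_le_geometric ρ 1 hρ1 fun M => ?_
    rw [dist_eq_norm, norm_sub_rev, one_mul]
    exact hclose M
  obtain ⟨e, he⟩ := cauchySeq_tendsto_of_complete hcauchy
  have he1 : ‖e‖ < 1 :=
    (le_of_tendsto he.norm (Filter.Eventually.of_forall hbound)).trans_lt hρ1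
  have hper : ∀ s < n, per p n S e (s : ℕ) = 0 := fun s hs => by
    have h1 : Tendsto (fun M => per p n S (η M).val (s : ℕ)) atTop (𝓝 (per p n S e (s : ℕ))) :=
      ((hP p C S n hn).1 e _ he1).2.2.2.2.2 _ ρ hρ1 hbound he
    have h2 : Tendsto (fun M => per p n S (η M).val (s : ℕ)) atTop (𝓝 0) := by
      rw [← hrel s hs]
      simp only [η, per_sum T hP S hn, per_nsmul T hP S hn]
      refine tendsto_finsetSum _ fun i _ => Tendsto.mul_const _ ?_
      rw [tendsto_iff_norm_sub_tendsto_zero]
      exact squeeze_zero (fun M => norm_nonneg _)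
        (fun M => (norm_sub_rev _ _).trans_le (hN i M))
        (tendsto_pow_atTop_nhds_zero_of_lt_one hπ0 hπ1)
    exact tendsto_nhds_unique h1 h2
  have he0 : e = 0 := by
    by_contra hne
    obtain ⟨s, hs, hs0⟩ := (hP p C S n hn).2.2.1 hn2 e he1 hne
    exact hs0 (hper s hs)
  subst he0
  have hc : 0 < T.setup.c :=
    (norm_pos_iff.2 T.hu.ne).trans_le (T.norm_u_le _)
  have hdvd : ∀ M i, p ^ M ∣ N i M := by
    intro M
    have hkill : ∀ i, p ^ M • thetaRoot T (n * M) (X i) = 0 := fun i => by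
      rw [← map_nsmul]
      apply Pt.ext
      change thetaC p n T.u (root p (p ^ M • X i).val (n * M)) = 0
      rw [pmul_hondaLaw T.hE T.hL hn, root_eq_iff.2 rfl]
      exact hξ.ker i
    have hconst : ∀ j, thetaRoot T (n * M) (η (M + j)) = thetaRoot T (n * M) (η M) := by
      intro j
      induction j with
      | zero => rfl
      | succ j ih =>
        have hz0 : thetaRoot T (n * M) (∑ i, D i (M + j) • (p ^ (M + j) • X i)) = 0 := by
          rw [map_sum]
          exact Finset.sum_eq_zero fun i _ => by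
            rw [map_zsmul, pow_add, mul_nsmul, map_nsmul, map_nsmul, hkill, smul_zero,
              smul_zero]
        rw [← add_assoc, hstep, map_add, ih, hz0, add_zero]
    have hroot : Tendsto (fun j => root p (η (M + j)).val (n * M)) atTop (𝓝 (0 : C)) := by
      rw [Metric.tendsto_atTop]
      intro ε hε
      obtain ⟨j₀, hj₀⟩ := Metric.tendsto_atTop.1 he ((ε / 2) ^ p ^ (n * M))
        (pow_pos (half_pos hε) _)
      refine ⟨j₀, fun j hj => ?_⟩
      have h1 := norm_root_sub_le (p := p) (half_pos hε).le (η := (η (M + j)).val) (η' := 0)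
        (m := n * M) (by
          have := hj₀ (M + j) (by omega)
          rw [dist_eq_norm] at this
          exact this.le)
      rw [root_zero_left, sub_zero] at h1
      rw [dist_zero_right]
      exact h1.trans_lt (half_lt_self hε)
    have hlim : Tendsto (fun j => (thetaRoot T (n * M) (η (M + j))).val) atTop (𝓝 (0 : C)) := by
      have h1 := (T.setup.continuousAt_theta (η := (0 : C)) (by simp) hc).tendsto
      rw [T.setup.theta_zero] at h1
      exact h1.comp hroot
    simp only [hconst] at hlim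
    have hval : (thetaRoot T (n * M) (η M)).val = 0 :=
      tendsto_nhds_unique tendsto_const_nhds hlim
    refine hξ.indep M (fun i => N i M) ?_
    refine Eq.trans ?_ hval
    simp only [η, map_sum, map_nsmul, Pt.val_sum]
    refine congrArg _ (funext fun i => ?_)
    rw [Pt.val_nsmul]
    rfl
  intro i
  have h1 : ∀ M, ‖z i‖ ≤ π ^ M := fun M => by
    obtain ⟨q, hq⟩ := hdvd M i
    have h2 := hN i M
    rw [show z i = (z i - (N i M : ℂ_[p])) + (N i M : ℂ_[p]) by abel]
    refine (IsUltrametricDist.norm_add_le_max _ _).trans (max_le h2 ?_)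
    rw [hq, Nat.cast_mul, Nat.cast_pow, norm_mul, norm_pow]
    exact mul_le_of_le_one_right (pow_nonneg hπ0 _) (IsUltrametricDist.norm_natCast_le_one _ _)
  exact norm_le_zero_iff.1
    (ge_of_tendsto' (tendsto_pow_atTop_nhds_zero_of_lt_one hπ0 hπ1) h1)

end Vale.Agent.P217.Relation

end
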