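import Vale.Agent.P217.Relation.Digits
import Vale.Agent.P217.CharZero.Span
import Vale.Agent.P217.Main
import Vale.Agent.P217.Torsion.Target
import Mathlib.FieldTheory.Finite.GaloisField

/-!
# P217: the period matrix of a homomorphism to a Honda law has full row rank
-/

noncomputable section

set_option linter.unusedSectionVars false

namespace Vale.Agent.P217.Relation

open Finset Filter Topology Vale.Agent.P217.Theta

variable {p : ℕ} [hp : Fact p.Prime] {C : Type} [NontriviallyNormedField C] [IsUltrametricDist C]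
  [CompleteSpace C] [CharP C p] [PerfectRing C p]

/-- A series with nonzero linear coefficient covers a small disc. -/
lemma exists_preimage (hE : EvalTarget) {χ : PowerSeries C} (hχ : IntSer χ)
    (hχ0 : PowerSeries.constantCoeff χ = 0) (h1 : PowerSeries.coeff 1 χ ≠ 0) {y : C}
    (hy : ‖y‖ < ‖PowerSeries.coeff 1 χ‖ ^ 2) : ∃ z : C, ‖z‖ < 1 ∧ ev1 z χ = y := by
  set a := PowerSeries.coeff 1 χ with ha
  have hapos : 0 < ‖a‖ := norm_pos_iff.2 h1
  have ha1 : ‖a‖ ≤ 1 := Eval.intSer_iff.1 hχ 1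
  set R := ‖y‖ / ‖a‖ with hR
  have hR0 : 0 ≤ R := div_nonneg (norm_nonneg _) hapos.le
  have hRa : R < ‖a‖ := by
    rw [hR, div_lt_iff₀ hapos, ← sq]
    exact hy
  have hR1 : R < 1 := hRa.trans_le ha1
  set κ := R / ‖a‖ with hκ
  have hκ0 : 0 ≤ κ := div_nonneg hR0 hapos.le
  have hκ1 : κ < 1 := (div_lt_one hapos).2 hRa
  obtain ⟨z, hz0, hzs⟩ : ∃ z : ℕ → C, z 0 = 0 ∧
      ∀ m, z (m + 1) = z m + (y - ev1 (z m) χ) / a :=
    ⟨fun m => Nat.rec 0 (fun _ zm => zm + (y - ev1 zm χ) / a) m, rfl, fun _ => rfl⟩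
  have hev0 : ev1 (0 : C) χ = 0 := by
    have := norm_ev1_le hE (z := (0 : C)) (by simp) hχ hχ0
    simpa using this
  have main : ∀ m, ‖z m‖ ≤ R ∧ ‖y - ev1 (z m) χ‖ ≤ ‖y‖ * κ ^ m := by
    intro m
    induction m with
    | zero => rw [hz0, hev0, sub_zero, norm_zero, pow_zero, mul_one]; exact ⟨hR0, le_rfl⟩
    | succ m ih =>
      obtain ⟨hzR, hEm⟩ := ih
      set t := (y - ev1 (z m) χ) / a with ht
      have htR : ‖t‖ ≤ R := by
        rw [ht, norm_div, hR]
        exact div_le_div_of_nonneg_right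
          (hEm.trans (mul_le_of_le_one_right (norm_nonneg _) (pow_le_one₀ hκ0 hκ1.le))) hapos.le
      refine ⟨?_, ?_⟩
      · rw [hzs]
        exact (IsUltrametricDist.norm_add_le_max _ _).trans (max_le hzR htR)
      · have hzm : ‖z m‖ < 1 := hzR.trans_lt hR1
        have hT := Torsion.norm_ev1_taylor_le hχ hzm (htR.trans_lt hR1)
        have hD : ‖ev1 (z m) (PowerSeries.derivative C χ) - a‖ ≤ R := by
          have h2 := norm_ev1_sub_le hE hzm (w := 0) (by simp) (Torsion.intSer_derivative hχ)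
          rw [show ev1 (0 : C) (PowerSeries.derivative C χ) = a from
            (Eval.ev_zero (σ := Unit) (PowerSeries.derivative C χ)).trans (by
              change PowerSeries.constantCoeff _ = a
              rw [← PowerSeries.coeff_zero_eq_constantCoeff_apply, PowerSeries.coeff_derivative,
                Nat.cast_zero, zero_add, zero_add, mul_one, ha]),
            sub_zero] at h2
          exact h2.trans hzR
        have hta : t * a = y - ev1 (z m) χ := div_mul_cancel₀ _ h1
        have hnext : y - ev1 (z (m + 1)) χ =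
            -((ev1 (z m + t) χ - ev1 (z m) χ - t * ev1 (z m) (PowerSeries.derivative C χ)) +
              t * (ev1 (z m) (PowerSeries.derivative C χ) - a)) := by
          rw [hzs, ← ht]
          linear_combination (-1 : C) * hta
        rw [hnext, norm_neg]
        refine (IsUltrametricDist.norm_add_le_max _ _).trans ?_
        have hb : ‖t‖ * R ≤ ‖y‖ * κ ^ (m + 1) := by
          rw [ht, norm_div, div_mul_eq_mul_div, mul_div_assoc, ← hκ, pow_succ, ← mul_assoc]
          exact mul_le_mul_of_nonneg_right hEm hκ0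
        refine max_le (hT.trans ((sq ‖t‖).le.trans ?_)) ?_
        · exact (mul_le_mul_of_nonneg_left htR (norm_nonneg _)).trans hb
        · rw [norm_mul]
          exact (mul_le_mul_of_nonneg_left hD (norm_nonneg _)).trans hb
  have hlim0 : Tendsto (fun m => ‖y‖ * κ ^ m) atTop (𝓝 0) := by
    simpa using (tendsto_pow_atTop_nhds_zero_of_lt_one hκ0 hκ1).const_mul ‖y‖
  have hcauchy : CauchySeq z := by
    refine cauchySeq_of_le_geometric κ R hκ1 fun m => ?_
    rw [dist_eq_norm, hzs, sub_add_cancel_left, norm_neg, norm_div, div_le_iff₀ hapos]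
    refine (main m).2.trans (le_of_eq ?_)
    rw [hR]
    field_simp
  obtain ⟨w, hw⟩ := cauchySeq_tendsto_of_complete hcauchy
  have hw1 : ‖w‖ < 1 :=
    (le_of_tendsto hw.norm (Filter.Eventually.of_forall fun m => (main m).1)).trans_lt hR1
  refine ⟨w, hw1, ?_⟩
  have h2 : Tendsto (fun m => y - ev1 (z m) χ) atTop (𝓝 (y - ev1 w χ)) :=
    (tendsto_ev1 hE hχ (fun m => (main m).1.trans_lt hR1) hw1 hw).const_sub y
  have h3 : Tendsto (fun m => y - ev1 (z m) χ) atTop (𝓝 0) :=
    squeeze_zero_norm (fun m => (main m).2) hlim0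
  exact (sub_eq_zero.1 (tendsto_nhds_unique h2 h3)).symm

/-- The Teichmüller representatives of a finite field separate its elements. -/
lemma rho_embedding_injective {kh : Type} [Field kh] [CharP kh p] [Fintype kh] (S : Sharp p C)
    (jh : kh →+* C) : Function.Injective fun c : kh => S.ρ (jh c) := by
  intro a b hab
  simp only at hab
  have hne : ∀ x : kh, x ≠ 0 → ‖jh x‖ = 1 := fun x hx => by
    refine le_antisymm (norm_embedding_le jh x) ?_
    have h1 : (1 : ℝ) = ‖jh x‖ * ‖jh x⁻¹‖ := by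
      rw [← norm_mul, ← map_mul, mul_inv_cancel₀ hx, map_one, norm_one]
    rw [h1]
    exact mul_le_of_le_one_right (norm_nonneg _) (norm_embedding_le jh _)
  rcases eq_or_ne b 0 with rfl | hb
  · by_contra ha
    have := congrArg (‖·‖) hab
    simp [S.norm_eq, hne a ha] at this
  by_contra hab'
  have hρb : S.ρ (jh b) ≠ 0 := by
    rw [← norm_ne_zero_iff, S.norm_eq, hne b hb]
    exact one_ne_zero
  have hx1 : S.ρ (jh (a / b)) = 1 := by rw [map_div₀, map_div₀, hab, div_self hρb]
  have hd : a / b - 1 ≠ 0 := by rwa [sub_ne_zero, ne_eq, div_eq_one_iff_eq hb]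
  have hd1 : ‖jh (a / b - 1)‖ = 1 := hne _ hd
  have h2 := S.add_le (jh (a / b - 1)) 1 (norm_embedding_le jh _) norm_one.le
  rw [show jh (a / b - 1) + 1 = jh (a / b) by rw [map_sub, map_one, sub_add_cancel], hx1, map_one,
    sub_right_comm, sub_self, zero_sub, norm_neg, S.norm_eq, hd1, one_div] at h2
  exact absurd h2 (not_le.mpr (inv_lt_one_of_one_lt₀ (by exact_mod_cast hp.out.one_lt)))

/-- Separation of the twists by an embedded finite field. -/
lemma twist_separation_of {kh : Type} [Field kh] [CharP kh p] [Fintype kh] (S : Sharp p C) {h : ℕ}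
    (hcard : Fintype.card kh = p ^ h) (jh : kh →+* C) (x : ℕ → ℂ_[p])
    (H : ∀ c : kh, ∑ r ∈ range h, x r * S.ρ (jh c) ^ p ^ r = 0) : ∀ r < h, x r = 0 := by
  intro r₀ hr₀
  obtain ⟨a, ha⟩ := exists_comb (p := p) (n := h) (S.ρ.comp jh.toMonoidWithZeroHom)
    (rho_embedding_injective S jh) hcard hr₀
  have h0 : ∑ c, a c * ∑ r ∈ range h, x r * S.ρ (jh c) ^ p ^ r = 0 :=
    Finset.sum_eq_zero fun c _ => by rw [H c, mul_zero]
  simp only [Finset.mul_sum] at h0
  rw [Finset.sum_comm, Finset.sum_eq_single r₀] at h0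
  · have h1 : ∑ c, a c * S.ρ (jh c) ^ p ^ r₀ = 1 := by simpa using ha r₀ hr₀
    have h2 : (∑ c, a c * S.ρ (jh c) ^ p ^ r₀) * x r₀ = 0 := by
      rw [Finset.sum_mul, ← h0]
      exact Finset.sum_congr rfl fun c _ => by ring
    rwa [h1, one_mul] at h2
  · intro r hr hne
    have h1 : ∑ c, a c * S.ρ (jh c) ^ p ^ r = 0 := by
      simpa [hne] using ha r (Finset.mem_range.1 hr)
    calc _ = (∑ c, a c * S.ρ (jh c) ^ p ^ r) * x r := by
          rw [Finset.sum_mul]
          exact Finset.sum_congr rfl fun c _ => by ring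
      _ = 0 := by rw [h1, zero_mul]
  · intro hn
    exact absurd (Finset.mem_range.2 hr₀) hn

/-- Separation of the twists. -/
lemma twist_separation [IsAlgClosed C] (S : Sharp p C) {h : ℕ} (hh : 1 ≤ h) (x : ℕ → ℂ_[p])
    (H : ∀ ω : C, ω ^ p ^ h = ω → ∑ r ∈ range h, x r * S.ρ ω ^ p ^ r = 0) : ∀ r < h, x r = 0 := by
  let : Fintype (GaloisField p h) := Fintype.ofFinite _
  have hcard : Fintype.card (GaloisField p h) = p ^ h := by
    rw [← Nat.card_eq_fintype_card, GaloisField.card p h (by omega)]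
  obtain ⟨jh⟩ := exists_embedding (p := p) (k := GaloisField p h) C
  exact twist_separation_of S hcard jh x fun c =>
    H (jh c) (by rw [← map_pow, ← hcard, FiniteField.pow_card])

/-- A linear form vanishing on the periods of a small disc vanishes. -/
lemma rows_independent [IsAlgClosed C] (hP : PeriodTarget) (hE : EvalTarget) (hL : LowDegreeTarget)
    (S : Sharp p C) {n h : ℕ} {u : Fin (n - 1) → C} (hu : HPoint n h u) {χ : PowerSeries C}
    (hχ : IsChi p n h u χ) {P : Fin h → Fin n → ℂ_[p]}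
    (hPχ : ∀ η : C, ‖η‖ < 1 → ∀ r : Fin h,
      per p h S (tMap p n u χ η) (r : ℕ) = ∑ t : Fin n, P r t * per p n S η (t : ℕ))
    (w : Fin h → ℂ_[p]) (hw : ∀ t, ∑ r, w r * P r t = 0) : w = 0 := by
  have hh := hu.one_le
  let T : Torsion.Data p n h C := ⟨hE, hL, u, hu⟩
  set δ := ‖PowerSeries.coeff 1 χ‖ ^ 2 with hδ
  have hδ0 : 0 < δ := pow_pos (norm_pos_iff.2 hχ.ne) 2
  have hvan : ∀ y : C, ‖y‖ < δ → ∑ r : Fin h, w r * per p h S y (r : ℕ) = 0 := by
    intro y hy
    obtain ⟨z, hz, hzy⟩ := exists_preimage hE hχ.int hχ.hom.1 hχ.ne hy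
    obtain ⟨η, hη, hθ⟩ := T.surjective hz
    have hT : tMap p n u χ η = y := by
      rw [tMap, show thetaC p n u η = z from hθ, hzy]
    rw [← hT]
    simp only [hPχ η hη, Finset.mul_sum]
    rw [Finset.sum_comm]
    refine Finset.sum_eq_zero fun t _ => ?_
    simp only [← mul_assoc, ← Finset.sum_mul, hw t, zero_mul]
  obtain ⟨π, hπ0, hπ1⟩ := NormedField.exists_norm_lt C one_pos
  obtain ⟨η, hη, hη0⟩ := ((hP p C S h hh).2.1 ⟨π, norm_pos_iff.1 hπ0, hπ1⟩)
    (min δ 1) (lt_min hδ0 one_pos)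
  rw [lt_min_iff] at hη
  funext l
  have key : ∀ r < h, (fun r => if hr : r < h then
      w ⟨r, hr⟩ * per p h S η ((r + (h - l) : ℕ) : ℤ) else 0) r = 0 := by
    refine twist_separation S hh _ fun ω hω => ?_
    have hω1 := norm_fixed_le hh hω
    have hy : ‖ω * η ^ p ^ (h - (l : ℕ))‖ < δ := by
      rw [norm_mul, norm_pow]
      refine ((mul_le_of_le_one_left (pow_nonneg (norm_nonneg _) _) hω1).trans ?_).trans_lt hη.1
      exact pow_le_of_le_one (norm_nonneg _) hη.2.le (pow_ne_zero _ hp.out.ne_zero)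
    rw [Finset.sum_range]
    have := hvan _ hy
    refine Eq.trans (Finset.sum_congr rfl fun r _ => ?_) this
    rw [per_monomial hP S hh hω hη.2 _ r.2, dif_pos r.2]
    ring
  have h1 := key l l.2
  simp only [dif_pos l.2] at h1
  rw [show (l : ℕ) + (h - l) = 0 + 1 * h by omega, per_add_mul hP S hh hη.2, Nat.cast_zero,
    pow_one] at h1
  simpa [hη0, hp.out.ne_zero] using h1

end Vale.Agent.P217.Relation

end
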