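import Vale.Agent.P217.Relation.Rank
import Vale.Agent.P217.Relation.Independence

/-!
# P217: no relations with coefficients in endomorphisms of the height `h` Honda law
-/

noncomputable section

set_option linter.unusedSectionVars false

namespace Vale.Agent.P217.Relation

open Finset Filter Topology Vale.Agent.P217.Theta

variable {p : ℕ} [hp : Fact p.Prime] {C : Type} [NontriviallyNormedField C] [IsUltrametricDist C]
  [CompleteSpace C] [CharP C p] [PerfectRing C p]

lemma intSer_endo {h : ℕ} (hh : 1 ≤ h) {α : PowerSeries C} (hα : IsEndo (honda p h C) α) :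
    IntSer α :=
  Eval.intSer_iff.2 fun m => norm_fixed_le hh (coeff_endo_honda p hh hα m)

/-- Periods of a formal sum of points. -/
lemma per_psum (hP : PeriodTarget) (hE : EvalTarget) (S : Sharp p C) {h : ℕ} (hh : 1 ≤ h) (r : ℤ) :
    ∀ {d : ℕ} (z : Fin d → C), (∀ i, ‖z i‖ < 1) →
      ‖psum (honda p h C) z‖ < 1 ∧
      per p h S (psum (honda p h C) z) r = ∑ i, per p h S (z i) r
  | 0, z, _ => by
    refine ⟨by simp [psum], ?_⟩
    rw [psum, per_zero hP hE S hh r, Fin.sum_univ_zero]
  | d + 1, z, hz => by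
    obtain ⟨h1, h2⟩ := per_psum hP hE S hh r (fun i : Fin d => z i.succ) fun i => hz i.succ
    refine ⟨norm_padd_lt hE (intSer_honda h) (hz 0) h1, ?_⟩
    rw [psum, ((hP p C S h hh).1 _ _ (hz 0)).2.2.1 _ h1, h2, Fin.sum_univ_succ]

end Vale.Agent.P217.Relation

namespace Vale.Agent.P217

open Finset Vale.Agent.P217.Theta Vale.Agent.P217.Relation

/-- No relations with coefficients in endomorphisms of the height `h` Honda law. -/
theorem relationTarget (hE : EvalTarget) (hL : LowDegreeTarget) (hP : PeriodTarget)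
    (hC : ChiTarget) : RelationTarget := by
  intro p _ k _ _ _ C _ _ _ _ _ _ S n h hk j u hu ξ hξ
  obtain ⟨χ, hχ, P, hPχ⟩ := hC p C S n h u hu
  refine ⟨χ, hχ, fun α hα hrel => ?_⟩
  have hh : 1 ≤ h := hu.one_le
  have : NeZero h := ⟨by omega⟩
  have hn : 1 ≤ n := hh.trans hu.lt.le
  let T : Torsion.Data p n h C := ⟨hE, hL, u, hu⟩
  choose c hc hag using fun i => exists_digSum hh (hα i)
  have hcol : ∀ (r e : Fin h) (s : ℕ), s < n →
      ∑ i, entry S h (c i) r e * per p n S (ξ i) (s : ℕ) = 0 := by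
    intro r
    have hlin : ∀ (ω : k) (τ : ℕ), ∑ t : Fin n, S.ρ (j ω) ^ p ^ (t : ℕ) *
        ∑ i, (∑ e : Fin h, entry S h (c i) r e * (p : ℂ_[p]) ^ (((r : ℕ) + e) / h) * P (e + r) t) *
          per p n S (ξ i) ((t + τ : ℕ) : ℤ) = 0 := by
      intro ω τ
      have hω : ω ^ p ^ n = ω := hk ▸ FiniteField.pow_card ω
      have hωC : j ω ^ p ^ n = j ω := by rw [← map_pow, hω]
      have hy : ∀ i, ‖j ω * ξ i ^ p ^ τ‖ < 1 := fun i => by
        rw [norm_mul, norm_pow]
        exact (mul_le_of_le_one_left (pow_nonneg (norm_nonneg _) _)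
          (norm_embedding_le j ω)).trans_lt
          (pow_lt_one₀ (norm_nonneg _) (hξ.small i) (pow_ne_zero _ (Fact.out : p.Prime).ne_zero))
      have hT : ∀ i, ‖tMap p n u χ (j ω * ξ i ^ p ^ τ)‖ < 1 := fun i => by
        have h1 : ‖thetaC p n u (j ω * ξ i ^ p ^ τ)‖ < 1 := T.setup.norm_theta_lt (hy i)
        exact (norm_ev1_le hE h1 hχ.int hχ.hom.1).trans_lt h1
      have h0 := hrel _ (isEndo_monomial hn hω τ)
      have hev : ∀ i, ev1 (ξ i) (PowerSeries.map j (PowerSeries.C ω * PowerSeries.X ^ p ^ τ)) =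
          j ω * ξ i ^ p ^ τ := fun i => by
        rw [map_mul, PowerSeries.map_C, map_pow, PowerSeries.map_X]
        exact ev1_mono (ξ i) (j ω) τ
      simp only [hev] at h0
      obtain ⟨-, hsum⟩ := per_psum hP hE S hh ((r : ℕ) : ℤ)
        (fun i => ev1 (tMap p n u χ (j ω * ξ i ^ p ^ τ)) (α i)) fun i =>
          (norm_ev1_le hE (hT i) (intSer_endo hh (hα i)) (hα i).1).trans_lt (hT i)
      rw [h0, per_zero hP hE S hh] at hsum
      refine Eq.trans ?_ hsum.symm
      simp only [Finset.mul_sum, Finset.sum_mul]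
      rw [Finset.sum_comm]
      refine Finset.sum_congr rfl fun i _ => ?_
      rw [per_endo hP hE S hh (intSer_endo hh (hα i)) (hc i) (hag i) (hT i) r.2,
        Finset.sum_range, Finset.sum_comm]
      refine Finset.sum_congr rfl fun e _ => ?_
      rw [per_mod hP S hh (hT i)]
      have hidx : (((r : ℕ) + e) % h : ℕ) = ((e + r : Fin h) : ℕ) := by
        rw [Fin.val_add, add_comm]
      rw [hidx, hPχ _ (hy i) (e + r), Finset.mul_sum, Finset.mul_sum]
      refine Finset.sum_congr rfl fun t _ => ?_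
      rw [per_monomial hP S hn hωC (hξ.small i) τ t.2]
      ring
    intro e s hs
    let G : Fin h → ℂ_[p] := fun e => (p : ℂ_[p]) ^ (((r : ℕ) + e) / h) *
      ∑ i, entry S h (c i) r e * per p n S (ξ i) (s : ℕ)
    have hG : ∀ t : Fin n, ∑ e, G e * P (e + r) t = 0 := by
      intro t
      have hz := twist_separation_of S hk j
        (fun t' => if ht : t' < n then ∑ i, (∑ e : Fin h, entry S h (c i) r e *
            (p : ℂ_[p]) ^ (((r : ℕ) + e) / h) * P (e + r) ⟨t', ht⟩) *
            per p n S (ξ i) ((t' + (s + n - t) : ℕ) : ℤ) else 0)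
        (fun ω => by
          rw [Finset.sum_range]
          refine Eq.trans (Finset.sum_congr rfl fun t' _ => ?_) (hlin ω (s + n - t))
          rw [dif_pos t'.2, mul_comm]) t t.2
      simp only [dif_pos t.2, Fin.eta] at hz
      rw [show (t : ℕ) + (s + n - t) = s + 1 * n by omega] at hz
      simp only [per_add_mul hP S hn (hξ.small _), pow_one] at hz
      have hz' : (p : ℂ_[p]) * ∑ e, G e * P (e + r) t = 0 := by
        rw [← hz]
        simp only [G, Finset.mul_sum, Finset.sum_mul]
        rw [Finset.sum_comm]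
        exact Finset.sum_congr rfl fun i _ => Finset.sum_congr rfl fun e _ => by ring
      exact (mul_eq_zero.1 hz').resolve_left (Nat.cast_ne_zero.mpr (Fact.out : p.Prime).ne_zero)
    have hw := rows_independent hP hE hL S hu hχ hPχ (fun l => G (l - r)) fun t => by
      rw [← hG t, ← Equiv.sum_comp (Equiv.addRight r)]
      exact Finset.sum_congr rfl fun e _ => by simp
    have := congrFun hw (e + r)
    simp only [add_sub_cancel_right, Pi.zero_apply, G] at this
    exact (mul_eq_zero.1 this).resolve_left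
      (pow_ne_zero _ (Nat.cast_ne_zero.mpr (Fact.out : p.Prime).ne_zero))
  have hzero : ∀ (ω : C), ω ^ p ^ h = ω → ∀ (e : Fin h) (i : Fin (n - h)),
      ∑ r ∈ range h, entry S h (c i) r e * S.ρ ω ^ p ^ r = 0 := by
    intro ω hω e
    refine relation_zero T hP S hξ (z := fun i => ∑ r ∈ range h,
      entry S h (c i) r e * S.ρ ω ^ p ^ r) (fun i => ?_) fun s hs => ?_
    · have hfix : ∀ k : ℕ, (ω * c i (e + k * h)) ^ p ^ h = ω * c i (e + k * h) := fun k => by
        rw [mul_pow, hω, hc i]
      have hterm : ∀ r, Summable fun k : ℕ =>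
          (p : ℂ_[p]) ^ k * S.ρ (ω * c i (e + k * h)) ^ p ^ r := fun r =>
        summable_pow_mul fun k => by
          rw [norm_pow, S.norm_eq]
          exact pow_le_one₀ (norm_nonneg _) (norm_fixed_le hh (hfix k))
      have heq : ∑ r ∈ range h, entry S h (c i) r e * S.ρ ω ^ p ^ r =
          ∑' k : ℕ, (p : ℂ_[p]) ^ k * ∑ r ∈ range h, S.ρ (ω * c i (e + k * h)) ^ p ^ r := by
        simp only [Finset.mul_sum]
        rw [Summable.tsum_finsetSum fun r _ => hterm r]
        refine Finset.sum_congr rfl fun r _ => ?_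
        rw [entry, ← tsum_mul_right]
        exact tsum_congr fun k => by rw [map_mul, mul_pow]; ring
      rw [heq]
      refine tsum_mem_Zcl (fun k => trace_mem_Zcl S hh (hfix k)) (summable_pow_mul fun k => ?_)
      exact IsUltrametricDist.norm_sum_le_of_forall_le_of_nonneg zero_le_one fun r _ => by
        rw [norm_pow, S.norm_eq]
        exact pow_le_one₀ (norm_nonneg _) (norm_fixed_le hh (hfix k))
    · simp only [Finset.sum_mul]
      rw [Finset.sum_comm]
      refine Finset.sum_eq_zero fun r hr => ?_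
      rw [← mul_zero (S.ρ ω ^ p ^ r), ← hcol ⟨r, Finset.mem_range.1 hr⟩ e s hs, Finset.mul_sum]
      exact Finset.sum_congr rfl fun i _ => by ring
  intro i
  refine eq_zero_of_entry S hh (hc i) (hag i) fun e he => ?_
  exact twist_separation S hh (fun r => entry S h (c i) r e)
    (fun ω hω => hzero ω hω ⟨e, he⟩ i) 0 (by omega)

end Vale.Agent.P217

end
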