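import Vale.Agent.P217.Relation.Digits
import Mathlib.RingTheory.WittVector.Compare
import Mathlib.NumberTheory.Padics.RingHoms
import Mathlib.FieldTheory.Finite.Basic
import Mathlib.Algebra.CharP.Subring

/-!
# P217: traces of Teichmüller representatives lie in the closure of the naturals
-/

noncomputable section

set_option linter.unusedSectionVars false

namespace Vale.Agent.P217.Relation

open Finset Filter Topology

/-- The closure of the naturals in `ℂ_[p]`. -/
def Zcl (p : ℕ) [Fact p.Prime] : Subsemiring ℂ_[p] :=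
  (Nat.castRingHom ℂ_[p]).rangeS.topologicalClosure

variable {p : ℕ} [hp : Fact p.Prime]

lemma norm_p_lt_one : ‖(p : ℂ_[p])‖ < 1 := by
  rw [norm_natCast_padic]
  exact inv_lt_one_of_one_lt₀ (by exact_mod_cast hp.out.one_lt)

lemma exists_nat_close {x : ℂ_[p]} (hx : x ∈ Zcl p) (M : ℕ) :
    ∃ N : ℕ, ‖x - N‖ ≤ ‖(p : ℂ_[p])‖ ^ M := by
  have hx' : x ∈ closure (Set.range (Nat.cast : ℕ → ℂ_[p])) := by
    change x ∈ closure (((Nat.castRingHom ℂ_[p]).rangeS : Subsemiring ℂ_[p]) : Set ℂ_[p]) at hx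
    rwa [RingHom.coe_rangeS] at hx
  obtain ⟨y, ⟨N, rfl⟩, hy⟩ := Metric.mem_closure_iff.1 hx' _
    (pow_pos (norm_pos_iff.2 (Nat.cast_ne_zero.mpr hp.out.ne_zero) :
      0 < ‖(p : ℂ_[p])‖) M)
  exact ⟨N, by rw [← dist_eq_norm]; exact hy.le⟩

lemma mem_Zcl_of_tendsto {x : ℂ_[p]} {N : ℕ → ℕ}
    (h : Tendsto (fun M => (N M : ℂ_[p])) atTop (𝓝 x)) : x ∈ Zcl p := by
  refine (Subsemiring.isClosed_topologicalClosure _).mem_of_tendsto h
    (Filter.Eventually.of_forall fun M => Subsemiring.le_topologicalClosure _ ?_)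
  exact ⟨N M, rfl⟩

lemma tsum_mem_Zcl {a : ℕ → ℂ_[p]} (h : ∀ k, a k ∈ Zcl p)
    (hs : Summable fun k : ℕ => (p : ℂ_[p]) ^ k * a k) :
    ∑' k : ℕ, (p : ℂ_[p]) ^ k * a k ∈ Zcl p :=
  (Subsemiring.isClosed_topologicalClosure _).mem_of_tendsto hs.hasSum.tendsto_sum_nat
    (Filter.Eventually.of_forall fun _ => Subsemiring.sum_mem (Zcl p) fun k _ =>
      Subsemiring.mul_mem _ (Subsemiring.pow_mem _ (natCast_mem (Zcl p) p) k) (h k))

lemma pow_dvd_sub_of_norm_le {a b M : ℕ}
    (h : ‖(a : ℂ_[p]) - (b : ℂ_[p])‖ ≤ ‖(p : ℂ_[p])‖ ^ M) :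
    ((p ^ M : ℕ) : ℤ) ∣ (a : ℤ) - b := by
  rw [show (a : ℂ_[p]) - (b : ℂ_[p]) = algebraMap ℚ_[p] ℂ_[p] ((((a : ℤ) - b : ℤ)) : ℚ_[p]) by
    simp, norm_natCast_padic] at h
  rw [show ‖algebraMap ℚ_[p] ℂ_[p] ((((a : ℤ) - b : ℤ)) : ℚ_[p])‖ =
    ‖((((a : ℤ) - b : ℤ)) : ℚ_[p])‖ from PadicComplex.norm_extends' p _] at h
  rw [Nat.cast_pow]
  exact (Padic.norm_int_le_pow_iff_dvd _ M).1 (by rwa [zpow_neg, zpow_natCast, ← inv_pow])

variable {C : Type} [NormedField C] [IsUltrametricDist C] [CharP C p]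

/-- Traces of Teichmüller representatives. -/
lemma trace_mem_Zcl (S : Sharp p C) {h : ℕ} (hh : 1 ≤ h) {c : C} (hc : c ^ p ^ h = c) :
    ∑ r ∈ range h, S.ρ c ^ p ^ r ∈ Zcl p := by
  let cb : unitBall C := ⟨c, norm_fixed_le hh hc⟩
  have hcb : cb ^ p ^ h = cb := Subtype.ext (by simpa using hc)
  let w : WittVector p (unitBall C) :=
    ∑ r ∈ range h, WittVector.teichmuller p (cb ^ p ^ r)
  have hθ : S.θ w = ∑ r ∈ range h, S.ρ c ^ p ^ r := by
    rw [map_sum]
    refine Finset.sum_congr rfl fun r _ => ?_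
    rw [S.θ_teich, ← map_pow S.ρ]
    simp [cb]
  have : CharP (unitBall C) p := CharP.subring C p (unitBall C)
  have hfrob : WittVector.frobenius w = w := by
    have h1 : ∀ r, WittVector.frobenius (WittVector.teichmuller p (cb ^ p ^ r)) =
        WittVector.teichmuller p (cb ^ p ^ (r + 1)) := fun r => by
      rw [WittVector.frobenius_eq_map_frobenius, WittVector.map_teichmuller, frobenius_def,
        ← pow_mul, ← pow_succ]
    simp only [w, map_sum, h1]
    obtain ⟨h', rfl⟩ : ∃ h', h = h' + 1 := ⟨h - 1, by omega⟩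
    rw [Finset.sum_range_succ, Finset.sum_range_succ', hcb, pow_zero, pow_one]
  have hco : ∀ i, ∃ a : ZMod p, ZMod.castHom (dvd_refl p) (unitBall C) a = w.coeff i := by
    intro i
    have h2 : w.coeff i ^ p = w.coeff i := by
      rw [← WittVector.coeff_frobenius_charP, hfrob]
    have h3 : ((w.coeff i : unitBall C) : C) ∈ (⊥ : Subfield C) :=
      (Subfield.mem_bot_iff_pow_eq_self C p).2 (congrArg Subtype.val h2)
    rw [← ZMod.fieldRange_castHom_eq_bot p] at h3
    obtain ⟨a, ha⟩ := h3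
    refine ⟨a, Subtype.ext ?_⟩
    refine Eq.trans ?_ ha
    exact congrFun (congrArg DFunLike.coe (Subsingleton.elim
      ((unitBall C).subtype.comp (ZMod.castHom (dvd_refl p) (unitBall C))) (ZMod.castHom (dvd_refl p) C))) a
  choose a ha using hco
  let w' : WittVector p (ZMod p) := WittVector.mk p a
  have hw : WittVector.map (ZMod.castHom (dvd_refl p) (unitBall C)) w' = w :=
    WittVector.ext fun i => by rw [WittVector.map_coeff]; exact ha i
  refine mem_Zcl_of_tendsto (N := fun M => PadicInt.appr (WittVector.equiv p w') M) ?_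
  rw [tendsto_iff_norm_sub_tendsto_zero]
  refine squeeze_zero (fun M => norm_nonneg _) (fun M => ?_)
    (tendsto_pow_atTop_nhds_zero_of_lt_one (norm_nonneg _) (norm_p_lt_one (p := p)))
  obtain ⟨e, he⟩ := Ideal.mem_span_singleton'.1
    (PadicInt.appr_spec M (WittVector.equiv p w'))
  have h4 : w' = ((PadicInt.appr (WittVector.equiv p w') M : ℕ) : WittVector p (ZMod p)) +
      (WittVector.equiv p).symm e * (p : WittVector p (ZMod p)) ^ M := by
    apply (WittVector.equiv p).injective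
    rw [map_add, map_natCast, map_mul, map_pow, map_natCast, RingEquiv.apply_symm_apply, he]
    abel
  rw [← hθ, ← hw, norm_sub_rev]
  conv_lhs => enter [1, 1]; rw [h4]
  rw [map_add, map_add, map_natCast, map_natCast, add_sub_cancel_left, map_mul, map_mul, map_pow,
    map_pow, map_natCast, map_natCast, norm_mul, norm_pow]
  exact mul_le_of_le_one_left (pow_nonneg (norm_nonneg _) _) (S.θ_le _)

end Vale.Agent.P217.Relation

end
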